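import Mathlib
import Vale.Agent.Lib.P335.helper26.ThreeDefs

namespace Vale.Agent.Lib.P335.Bip
open Finset

namespace H55

/-- Core of Efron monotonicity: the cross terms. -/
theorem efron_core (u v : ℕ → ℝ) (hu : ∀ t, 0 ≤ u t) (hv : ∀ t, 0 ≤ v t)
    (hv2 : ∀ s t, s ≤ t → v s * v (t + 1) ≤ v (s + 1) * v t) (n t : ℕ) :
    (∑ x ∈ (range (n + 1)).filter (fun x => t ≤ x), u x * v (n - x)) *
        (∑ y ∈ (range (n + 2)).filter (fun y => y < t), u y * v (n + 1 - y))
      ≤ (∑ x ∈ (range (n + 2)).filter (fun x => t ≤ x), u x * v (n + 1 - x)) *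
        (∑ y ∈ (range (n + 1)).filter (fun y => y < t), u y * v (n - y)) := by
  rw [Finset.sum_mul_sum, Finset.sum_mul_sum]
  have hsub : (range (n + 1)).filter (fun x => t ≤ x) ⊆
      (range (n + 2)).filter (fun x => t ≤ x) := by
    intro x hx
    simp only [mem_filter, mem_range] at hx ⊢
    exact ⟨by omega, hx.2⟩
  refine le_trans ?_ (Finset.sum_le_sum_of_subset_of_nonneg hsub ?_)
  · refine Finset.sum_le_sum ?_
    intro x hx
    simp only [mem_filter, mem_range] at hx
    have hsub2 : (range (n + 2)).filter (fun y => y < t) ⊆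
        (range (n + 1)).filter (fun y => y < t) := by
      intro y hy
      simp only [mem_filter, mem_range] at hy ⊢
      exact ⟨by omega, hy.2⟩
    refine le_trans ?_ (Finset.sum_le_sum_of_subset_of_nonneg hsub2 ?_)
    · refine Finset.sum_le_sum ?_
      intro y hy
      simp only [mem_filter, mem_range] at hy
      have h1 : n + 1 - y = n - y + 1 := by omega
      have h2 : n + 1 - x = n - x + 1 := by omega
      rw [h1, h2]
      have h3 := hv2 (n - x) (n - y) (by omega)
      have h4 : 0 ≤ u x * u y := mul_nonneg (hu x) (hu y)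
      nlinarith [mul_le_mul_of_nonneg_left h3 h4]
    · intro y _ _
      exact mul_nonneg (mul_nonneg (hu _) (hv _)) (mul_nonneg (hu _) (hv _))
  · intro x _ _
    exact Finset.sum_nonneg
      (fun y _ => mul_nonneg (mul_nonneg (hu _) (hv _)) (mul_nonneg (hu _) (hv _)))

/-- Splitting a sum at a threshold. -/
theorem sum_split_thr (f : ℕ → ℝ) (s : Finset ℕ) (t : ℕ) :
    ∑ x ∈ s, f x =
      ∑ x ∈ s.filter (fun x => t ≤ x), f x + ∑ x ∈ s.filter (fun x => x < t), f x := by
  rw [← Finset.sum_filter_add_sum_filter_not s (fun x => t ≤ x)]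
  congr 2
  apply Finset.filter_congr
  intro x _
  exact not_le

end H55

theorem efron (u v : ℕ → ℝ) (hu : ∀ t, 0 ≤ u t) (hv : ∀ t, 0 ≤ v t)
    (hv2 : ∀ s t, s ≤ t → v s * v (t + 1) ≤ v (s + 1) * v t) (n t : ℕ) :
    (∑ x ∈ (range (n + 1)).filter (fun x => t ≤ x), u x * v (n - x)) *
        (∑ x ∈ range (n + 2), u x * v (n + 1 - x))
      ≤ (∑ x ∈ (range (n + 2)).filter (fun x => t ≤ x), u x * v (n + 1 - x)) *
        (∑ x ∈ range (n + 1), u x * v (n - x)) := by
  have hc := H55.efron_core u v hu hv hv2 n t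
  rw [H55.sum_split_thr (fun x => u x * v (n + 1 - x)) (range (n + 2)) t,
    H55.sum_split_thr (fun x => u x * v (n - x)) (range (n + 1)) t]
  nlinarith [hc]

theorem efron_lower (u v : ℕ → ℝ) (hu : ∀ t, 0 ≤ u t) (hv : ∀ t, 0 ≤ v t)
    (hv2 : ∀ s t, s ≤ t → v s * v (t + 1) ≤ v (s + 1) * v t) (n t : ℕ) :
    (∑ x ∈ (range (n + 2)).filter (fun x => x < t), u x * v (n + 1 - x)) *
        (∑ x ∈ range (n + 1), u x * v (n - x))
      ≤ (∑ x ∈ (range (n + 1)).filter (fun x => x < t), u x * v (n - x)) *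
        (∑ x ∈ range (n + 2), u x * v (n + 1 - x)) := by
  have hc := H55.efron_core u v hu hv hv2 n t
  rw [H55.sum_split_thr (fun x => u x * v (n + 1 - x)) (range (n + 2)) t,
    H55.sum_split_thr (fun x => u x * v (n - x)) (range (n + 1)) t]
  nlinarith [hc]

end Vale.Agent.Lib.P335.Bip
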